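import Vale.Agent.P011.E6I.H64.Mat

/-!
Real matrices of degree three: a torus for which the projection of a given element has a
triangle of positive area.
-/

open Matrix

namespace Vale.Agent.P011.E6I

section alg

variable {K : Type} [Field K]

/-- The solution of the linear system for the projection, times the discriminant. -/
def crm (p q g0 g1 g2 : K) : Fin 3 → K :=
  ![(4 * p ^ 3 - 9 * q ^ 2) * g0 + 6 * p * q * g1 - 4 * p ^ 2 * g2,
    6 * p * q * g0 + 2 * p ^ 2 * g1 - 9 * q * g2, -4 * p ^ 2 * g0 - 9 * q * g1 + 6 * p * g2]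

/-- The square of the pure quaternion. -/
def cf (p q g0 g1 g2 : K) : K :=
  -(dsC p q) ^ 2 * g0 * nmC p q
    ![dsC p q * g0 - 2 * ((4 * p ^ 3 - 9 * q ^ 2) * g0 + 6 * p * q * g1 - 4 * p ^ 2 * g2),
    -2 * (6 * p * q * g0 + 2 * p ^ 2 * g1 - 9 * q * g2),
    -2 * (-4 * p ^ 2 * g0 - 9 * q * g1 + 6 * p * g2)]

theorem Cc_sq (p q : K) (x : Fin 3 → K) : Cc p q (mulC p q x x) =
    -dsC p q * trC p x * nmC p q ![trC p x - 2 * x 0, -2 * x 1, -2 * x 2] := by
  simp [Cc, trC, nmC]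
  ring

theorem trC_crm (p q g0 g1 g2 : K) : trC p (crm p q g0 g1 g2) = dsC p q * g0 := by
  simp [trC, crm, dsC]
  ring

theorem trC_crm1 (p q g0 g1 g2 : K) :
    trC p (mulC p q (crm p q g0 g1 g2) ![0, 1, 0]) = dsC p q * g1 := by
  simp [trC, crm, dsC]
  ring

theorem trC_crm2 (p q g0 g1 g2 : K) :
    trC p (mulC p q (crm p q g0 g1 g2) ![0, 0, 1]) = dsC p q * g2 := by
  simp [trC, crm, dsC]
  ring

theorem cf_eq (p q g0 g1 g2 : K) :
    cf p q g0 g1 g2 = Cc p q (mulC p q (crm p q g0 g1 g2) (crm p q g0 g1 g2)) := by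
  rw [Cc_sq, trC_crm, cf]
  simp only [crm, Matrix.cons_val_zero, Matrix.cons_val_one, Matrix.cons_val_two, Matrix.head_cons,
    Matrix.tail_cons]
  ring

theorem cf_map {K' : Type} [Field K'] (f : K →+* K') (p q g0 g1 g2 : K) :
    f (cf p q g0 g1 g2) = cf (f p) (f q) (f g0) (f g1) (f g2) := by
  simp [cf, nmC, dsC, map_ofNat]

theorem cf_val (g0 g1 : K) : cf (-1) 0 g0 g1 0 = -1024 * g0 ^ 2 * (g0 ^ 2 + g1 ^ 2) := by
  simp [cf, nmC, dsC]
  ring

end alg

section real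

theorem cubic_root (a b c : ℝ) : ∃ x : ℝ, x ^ 3 + a * x ^ 2 + b * x + c = 0 := by
  let M : ℝ := 1 + |a| + |b| + |c|
  have hM : 1 ≤ M := by
    have := abs_nonneg a
    have := abs_nonneg b
    have := abs_nonneg c
    simp only [M]
    linarith
  have hM0 : 0 < M := lt_of_lt_of_le one_pos hM
  have ha1 := neg_abs_le a
  have ha2 := le_abs_self a
  have hb1 := neg_abs_le b
  have hb2 := le_abs_self b
  have hc1 := neg_abs_le c
  have hc2 := le_abs_self c
  have hMM : M ≤ M ^ 2 := by nlinarith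
  have hM1 : 1 ≤ M ^ 2 := by nlinarith
  have e : M ^ 3 = M ^ 2 + |a| * M ^ 2 + |b| * M ^ 2 + |c| * M ^ 2 := by
    simp only [M]
    ring
  have hb3 : |b| * M ≤ |b| * M ^ 2 := mul_le_mul_of_nonneg_left hMM (abs_nonneg b)
  have hc3 : |c| * 1 ≤ |c| * M ^ 2 := mul_le_mul_of_nonneg_left hM1 (abs_nonneg c)
  have h1 : 0 ≤ M ^ 3 + a * M ^ 2 + b * M + c := by
    have e1 : -|a| * M ^ 2 ≤ a * M ^ 2 := mul_le_mul_of_nonneg_right ha1 (by positivity)
    have e2 : -|b| * M ≤ b * M := mul_le_mul_of_nonneg_right hb1 hM0.le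
    nlinarith
  have h2 : (-M) ^ 3 + a * (-M) ^ 2 + b * (-M) + c ≤ 0 := by
    have e1 : a * M ^ 2 ≤ |a| * M ^ 2 := mul_le_mul_of_nonneg_right ha2 (by positivity)
    have e2 : -b * M ≤ |b| * M := mul_le_mul_of_nonneg_right (by linarith) hM0.le
    nlinarith
  have hcont : ContinuousOn (fun x : ℝ => x ^ 3 + a * x ^ 2 + b * x + c) (Set.Icc (-M) M) := by
    fun_prop
  obtain ⟨x, -, hx⟩ := intermediate_value_Icc (by linarith : -M ≤ M) hcont
    (show (0 : ℝ) ∈ Set.Icc _ _ from ⟨h2, h1⟩)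
  exact ⟨x, hx⟩

/-- A real embedding extends to a cubic extension. -/
theorem exists_real_over {k L : Type} [Field k] [CharZero k] [Field L] [Algebra k L]
    (h3 : Module.finrank k L = 3) (τ : k →+* ℝ) : ∃ w : L →+* ℝ, w.comp (algebraMap k L) = τ := by
  have hfd : FiniteDimensional k L := FiniteDimensional.of_finrank_pos (by rw [h3]; norm_num)
  let _ := τ.toAlgebra
  let pb := Field.powerBasisOfFiniteOfSeparable k L
  have hdeg : (minpoly k pb.gen).natDegree = 3 := by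
    rw [pb.natDegree_minpoly, ← pb.finrank, h3]
  have hmon : (minpoly k pb.gen).Monic := minpoly.monic pb.isIntegral_gen
  obtain ⟨r, hr⟩ := cubic_root (τ ((minpoly k pb.gen).coeff 2)) (τ ((minpoly k pb.gen).coeff 1))
    (τ ((minpoly k pb.gen).coeff 0))
  have hr' : Polynomial.aeval r (minpoly k pb.gen) = 0 := by
    rw [Polynomial.aeval_eq_sum_range, hdeg]
    simp only [Finset.sum_range_succ, Finset.sum_range_zero, Algebra.smul_def]
    have e3 : (minpoly k pb.gen).coeff 3 = 1 := by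
      rw [← hdeg]
      exact hmon
    rw [e3, map_one]
    linear_combination hr
  exact ⟨(pb.lift r hr').toRingHom, (pb.lift r hr').comp_algebraMap⟩

/-- A matrix which is not scalar has a vector which is not an eigenvector. -/
theorem exists_vec {K : Type} [Field K] (g : Matrix (Fin 3) (Fin 3) K)
    (hg : ∀ t : K, g ≠ t • (1 : Matrix (Fin 3) (Fin 3) K)) :
    ∃ v : Fin 3 → K, ¬ (v 1 * g.mulVec v 2 - v 2 * g.mulVec v 1 = 0 ∧
      v 2 * g.mulVec v 0 - v 0 * g.mulVec v 2 = 0 ∧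
      v 0 * g.mulVec v 1 - v 1 * g.mulVec v 0 = 0) := by
  by_contra hcon
  push Not at hcon
  obtain ⟨-, a1, a2⟩ := hcon ![1, 0, 0]
  obtain ⟨b0, -, b2⟩ := hcon ![0, 1, 0]
  obtain ⟨c0, c1, -⟩ := hcon ![0, 0, 1]
  obtain ⟨-, -, d2⟩ := hcon ![1, 1, 0]
  obtain ⟨-, e1, -⟩ := hcon ![1, 0, 1]
  simp [Matrix.mulVec, dotProduct, Fin.sum_univ_three] at a1 a2 b0 b2 c0 c1 d2 e1
  apply hg (g 0 0)
  ext i j
  fin_cases i <;> fin_cases j <;> simp [a1, a2, b0, b2, c0, c1]
  · linear_combination d2 - a2 + b2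
  · linear_combination -e1 - a1 + c1

/-- A rotation in a suitable plane. -/
theorem exists_b (g : Matrix (Fin 3) (Fin 3) ℝ)
    (hg : ∀ t : ℝ, g ≠ t • (1 : Matrix (Fin 3) (Fin 3) ℝ)) :
    ∃ b : Matrix (Fin 3) (Fin 3) ℝ, b.trace = 0 ∧ (b * b).trace = -2 ∧ b.det = 0 ∧
      (g * (b * b)).trace = 0 := by
  obtain ⟨v, hv⟩ := exists_vec g hg
  obtain ⟨w, hw⟩ : ∃ w : Fin 3 → ℝ, w = g.mulVec v := ⟨_, rfl⟩
  rw [← hw] at hv
  obtain ⟨s, hs⟩ : ∃ s : ℝ, s = g.trace := ⟨_, rfl⟩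
  let N : Matrix (Fin 3) (Fin 3) ℝ := !![v 0, w 0 - s * v 0, v 1 * w 2 - v 2 * w 1;
    v 1, w 1 - s * v 1, v 2 * w 0 - v 0 * w 2; v 2, w 2 - s * v 2, v 0 * w 1 - v 1 * w 0]
  have hdet : N.det = (v 1 * w 2 - v 2 * w 1) ^ 2 + (v 2 * w 0 - v 0 * w 2) ^ 2 +
      (v 0 * w 1 - v 1 * w 0) ^ 2 := by
    simp [N, det_fin_three]
    ring
  have hN : IsUnit N.det := by
    rw [isUnit_iff_ne_zero, hdet]
    intro h0
    apply hv
    have h1 := sq_nonneg (v 1 * w 2 - v 2 * w 1)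
    have h2 := sq_nonneg (v 2 * w 0 - v 0 * w 2)
    have h3 := sq_nonneg (v 0 * w 1 - v 1 * w 0)
    refine ⟨?_, ?_, ?_⟩
    · exact pow_eq_zero_iff (two_ne_zero) |>.1 (by linarith)
    · exact pow_eq_zero_iff (two_ne_zero) |>.1 (by linarith)
    · exact pow_eq_zero_iff (two_ne_zero) |>.1 (by linarith)
  have hNN : N⁻¹ * N = 1 := Matrix.nonsing_inv_mul _ hN
  have hNN' : N * N⁻¹ = 1 := Matrix.mul_nonsing_inv _ hN
  let J : Matrix (Fin 3) (Fin 3) ℝ := !![0, 0, 0; 0, 0, -1; 0, 1, 0]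
  have hJJ : J * J = !![0, 0, 0; 0, -1, 0; 0, 0, -1] := by
    ext i j
    fin_cases i <;> fin_cases j <;> simp [J, Matrix.mul_apply, Fin.sum_univ_three]
  have hbb : N * J * N⁻¹ * (N * J * N⁻¹) = N * (J * J) * N⁻¹ := by
    calc _ = N * J * (N⁻¹ * N) * J * N⁻¹ := by simp only [mul_assoc]
      _ = _ := by rw [hNN, mul_one]; simp only [mul_assoc]
  have htr : ∀ X : Matrix (Fin 3) (Fin 3) ℝ, (N * X * N⁻¹).trace = X.trace := by
    intro X
    rw [Matrix.trace_mul_comm, ← mul_assoc, hNN, one_mul]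
  refine ⟨N * J * N⁻¹, ?_, ?_, ?_, ?_⟩
  · rw [htr]
    simp [J, Matrix.trace_fin_three]
  · rw [hbb, htr, hJJ]
    simp [Matrix.trace_fin_three]
    norm_num
  · rw [Matrix.det_mul, Matrix.det_mul]
    have : J.det = 0 := by simp [J, det_fin_three]
    rw [this]
    ring
  · obtain ⟨g', hg'⟩ : ∃ g', g' = N⁻¹ * g * N := ⟨_, rfl⟩
    have h1 : (g * (N * (J * J) * N⁻¹)).trace = (g' * (J * J)).trace := by
      rw [hg', ← mul_assoc, Matrix.trace_mul_comm]
      simp only [mul_assoc]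
    have h2 : g'.trace = s := by
      rw [hg', Matrix.trace_mul_comm, ← mul_assoc, hNN', one_mul, hs]
    have h3 : g' 0 0 = s := by
      have e1 : g * N = N * g' := by
        rw [hg', ← mul_assoc, ← mul_assoc, hNN', one_mul]
      have e2 : (g * N).mulVec ![1, 0, 0] = N.mulVec ![s, 1, 0] := by
        have e3 : N.mulVec ![1, 0, 0] = v := by
          funext i
          fin_cases i <;> simp [N, Matrix.mulVec, dotProduct, Fin.sum_univ_three]
        rw [← Matrix.mulVec_mulVec, e3, ← hw]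
        funext i
        fin_cases i <;> simp [N, Matrix.mulVec, dotProduct, Fin.sum_univ_three] <;> ring
      rw [e1, ← Matrix.mulVec_mulVec] at e2
      have e4 := congrArg (N⁻¹).mulVec e2
      simp only [Matrix.mulVec_mulVec, ← mul_assoc, hNN, one_mul, Matrix.one_mulVec] at e4
      have e5 := congrFun e4 0
      simpa [Matrix.mulVec, dotProduct, Fin.sum_univ_three] using e5
    rw [hbb, h1, hJJ]
    rw [Matrix.trace_fin_three] at h2 ⊢
    simp [Matrix.mul_apply, Fin.sum_univ_three]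
    linarith

end real

section gg

/-- The discriminant form for a matrix of arbitrary trace. -/
def gf {K : Type} [Field K] (g b : Matrix (Fin 3) (Fin 3) K) : K :=
  cf (((b - (b.trace / 3) • 1) * (b - (b.trace / 3) • 1)).trace / 2)
    (b - (b.trace / 3) • 1).det g.trace (g * (b - (b.trace / 3) • 1)).trace
    (g * ((b - (b.trace / 3) • 1) * (b - (b.trace / 3) • 1))).trace

theorem gf_map {K K' : Type} [Field K] [Field K'] (f : K →+* K')
    (g b : Matrix (Fin 3) (Fin 3) K) : f (gf g b) = gf (g.map f) (b.map f) := by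
  have h1 : ∀ M : Matrix (Fin 3) (Fin 3) K, (M.map f).trace = f M.trace := fun M => by
    simp [Matrix.trace_fin_three]
  have h2 : (b.map f - ((b.map f).trace / 3) • 1) = (b - (b.trace / 3) • 1).map f := by
    rw [h1]
    ext i j
    fin_cases i <;> fin_cases j <;> simp [map_ofNat]
  have h3 : ∀ M M' : Matrix (Fin 3) (Fin 3) K, M.map f * M'.map f = (M * M').map f := fun M M' =>
    (Matrix.map_mul).symm
  have h4 : ∀ M : Matrix (Fin 3) (Fin 3) K, (M.map f).det = f M.det := fun M =>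
    (RingHom.map_det f M).symm
  rw [gf, gf, h2, h3, h3, h3, h1, h1, h1, h1, h4, cf_map, map_div₀, map_ofNat]

theorem continuous_gf (g : Matrix (Fin 3) (Fin 3) ℝ) : Continuous (gf g) := by
  unfold gf cf nmC dsC
  simp only [Matrix.cons_val_zero, Matrix.cons_val_one, Matrix.cons_val_two, Matrix.head_cons,
    Matrix.tail_cons]
  fun_prop

theorem gf_neg (g : Matrix (Fin 3) (Fin 3) ℝ)
    (hg : ∀ t : ℝ, g ≠ t • (1 : Matrix (Fin 3) (Fin 3) ℝ)) (ht : g.trace ≠ 0) :
    ∃ b, gf g b < 0 := by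
  obtain ⟨b, h1, h2, h3, h4⟩ := exists_b g hg
  refine ⟨b, ?_⟩
  have h5 : b - (b.trace / 3) • (1 : Matrix (Fin 3) (Fin 3) ℝ) = b := by
    rw [h1, zero_div, zero_smul, sub_zero]
  have h6 : (b * b).trace / 2 = -1 := by rw [h2]; norm_num
  rw [gf, h5, h6, h3, h4, cf_val]
  have h7 : 0 < g.trace ^ 2 := by positivity
  nlinarith [sq_nonneg (g * b).trace]

end gg

end Vale.Agent.P011.E6I
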