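import Vale.Agent.P011.E6I.Cj
import Vale.Agent.P011.E6I.H637.Base2
import Vale.Agent.P011.E6.Coord
import Vale.Agent.P011.E6.Pos3
import Vale.Agent.P011.E6.Spread0

/-!
Change of the quaternion subalgebra for the elements of `D`, and quaternion subalgebras containing a
given square root.
-/

open Matrix

namespace Vale.Agent.P011.E6I

open Vale.Agent.P011.MPQ Vale.Agent.P011.D4 Vale.Agent.P011.D4.Oct Vale.Agent.P011.E6
open Vale.Agent.P011.E6.Alb

section sq

variable {k : Type} [Field k] [NumberField k] {a b c : kˣ}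

/-- A scalar which is negative at the real places where the octonion algebra is definite is the
square of the first element of a basic triple. -/
theorem exists_trip_sq (hdiv : Division a b c) (C : kˣ)
    (hC : ∀ φ : k →+* ℝ, Dfn φ a b c → φ C < 0) :
    ∃ (b' c' : kˣ) (i j l : Oct a b c), Trip C b' c' i j l := by
  obtain ⟨a', b', c', i, j, l, ht, hpos⟩ := exists_good hdiv
  obtain ⟨q, hq⟩ := exists_nrd (a := a') (b := b') (C * c'⁻¹) (by
    intro φ ha hb
    by_cases hd : φ a < 0 ∧ φ b < 0 ∧ φ c < 0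
    · have h1 := hC φ hd
      have h2 := (Dfn.trip (w := φ) hd ht).2.2
      rw [Units.val_mul, map_mul, Units.val_inv_eq_inv_val, map_inv₀]
      exact mul_pos_of_neg_of_neg h1 (inv_lt_zero.2 h2)
    · exact absurd (hpos φ hd) (not_lt.2 ha.le))
  obtain ⟨Φ, hΦ, hm, hst, hn⟩ := exists_emb ht
  have hC0 : (C : k) ≠ 0 := C.ne_zero
  have hx1 : (⟨0, q⟩ : Oct a' b' c') * ⟨0, q⟩ = (C : k) • (1 : Oct a' b' c') := by
    have h1 : (c' : k) * nrd q = C := by
      rw [hq, Units.val_mul, Units.val_inv_eq_inv_val]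
      field_simp
    have h2 : Oct.norm (⟨0, q⟩ : Oct a' b' c') = -(C : k) := by
      rw [Oct.norm]
      have : nrd (0 : Qt a' b') = 0 := by simp [nrd]
      rw [this, h1, zero_sub]
    have h3 : bil (⟨0, q⟩ : Oct a' b' c') 1 = 0 := by
      rw [bil_eq]
      simp
    rw [Oct.mul_self_eq, h3, h2, zero_smul, zero_sub, neg_smul, neg_neg]
  have hx2 : star (⟨0, q⟩ : Oct a' b' c') = -⟨0, q⟩ := by
    apply ext8 <;> simp
  let x : Oct a b c := Φ ⟨0, q⟩
  have hxx : x * x = (C : k) • (1 : Oct a b c) := by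
    change Φ _ * Φ _ = _
    rw [← hm, hx1, map_smul, hom_one hm]
  have hxs : star x = -x := by
    change star (Φ _) = -Φ _
    rw [← hst, hx2, map_neg]
  have hx0 : x ≠ 0 := by
    intro h0
    rw [h0, mul_zero] at hxx
    apply hC0
    apply smul_one_inj (a := a) (b := b) (c := c)
    rw [← hxx, zero_smul]
  have pure_of : ∀ w : Oct a b c, dot w 1 = 0 → star w = -w := by
    intro w hw
    apply star_neg_of_pure
    rw [bil_eq_dot, hw, mul_zero]
  obtain ⟨y, hy0, hy⟩ := exists_perp ![1, x, 1, 1, 1, 1, 1]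
  obtain ⟨z, hz0, hz⟩ := exists_perp ![1, x, y, x * y, 1, 1, 1]
  have hy1 : dot y 1 = 0 := hy 0
  have hyx : dot y x = 0 := hy 1
  have hz1 : dot z 1 = 0 := hz 0
  have hzx : dot z x = 0 := hz 1
  have hzy : dot z y = 0 := hz 2
  have hzxy : dot z (x * y) = 0 := hz 3
  obtain ⟨a1, b1, c1, h1⟩ := exists_trip hdiv hxs hx0 (pure_of y hy1) hy0 (pure_of z hz1) hz0
    (by rw [dot_comm, hyx]) (by rw [dot_comm, hzx]) (by rw [dot_comm, hzy])
    (by rw [dot_comm, hzxy])
  have h2 : a1 = C := by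
    apply Units.ext
    apply smul_one_inj (a := a) (b := b) (c := c)
    rw [← h1.ii, hxx]
  rw [h2] at h1
  exact ⟨b1, c1, x, y, z, h1⟩

end sq

section act

variable {F : Type} [Field F] {a b c : Fˣ}

/-- The action of a matrix over the ground field of determinant one. -/
theorem act_map {z : Matrix (Fin 3) (Fin 3) F} (hz : z.det = 1)
    {m : (Matrix (Fin 3) (Fin 3) (Qt a b))ˣ}
    (hm : (m : Matrix (Fin 3) (Fin 3) (Qt a b)) = z.map (algebraMap F _)) (x : Alb a b c) :
    Alb.act m 1 x = cj z x := by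
  have h1 : ((m⁻¹ : (Matrix (Fin 3) (Fin 3) (Qt a b))ˣ) : Matrix (Fin 3) (Fin 3) (Qt a b)) =
      z.adjugate.map (algebraMap F _) := by
    have h2 : (m : Matrix (Fin 3) (Fin 3) (Qt a b)) * z.adjugate.map (algebraMap F _) = 1 := by
      rw [hm, ← Matrix.map_mul, Matrix.mul_adjugate, hz, one_smul]
      exact map_one (algebraMap F (Qt a b)).mapMatrix
    rw [Units.inv_eq_of_mul_eq_one_right h2]
  rw [Alb.act, h1, hm]
  have e1 : ∀ i j, ((z.map (algebraMap F (Qt a b))) * Alb.mat x *
      (z.map (algebraMap F (Qt a b))).conjTranspose) i j =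
      ∑ s, ∑ t, (z i t * z j s) • Alb.mat x t s := by
    intro i j
    rw [Matrix.mul_apply]
    apply Finset.sum_congr rfl
    intro s _
    rw [Matrix.mul_apply, Finset.sum_mul]
    apply Finset.sum_congr rfl
    intro t _
    rw [Matrix.conjTranspose_apply, Matrix.map_apply, Matrix.map_apply, star_alg,
      ← Algebra.commutes, ← Algebra.smul_def, ← Algebra.smul_def, smul_smul, mul_comm (z j s)]
  have e2 : ∀ i, Matrix.vecMul (Alb.vec x) (z.adjugate.map (algebraMap F (Qt a b))) i =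
      ∑ s, z.adjugate s i • Alb.vec x s := by
    intro i
    rw [Matrix.vecMul, dotProduct]
    apply Finset.sum_congr rfl
    intro s _
    rw [Matrix.map_apply, ← Algebra.commutes, ← Algebra.smul_def]
  have e3 : ∀ x : Oct a b c, bil x 1 = 2 * x.fst.re := by
    intro x
    rw [bil_eq]
    simp
  apply Alb.ext
  · simp only [ofMV, e1, cj, dia, e3]
    simp [Fin.sum_univ_three, Alb.mat]
    ring
  · simp only [ofMV, e1, cj, dia, e3]
    simp [Fin.sum_univ_three, Alb.mat]
    ring
  · simp only [ofMV, e1, cj, dia, e3]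
    simp [Fin.sum_univ_three, Alb.mat]
    ring
  · simp only [ofMV, e1, e2, cj, ent]
    apply ext8 <;> simp [Fin.sum_univ_three, Alb.mat, Alb.vec, Matrix.adjugate_fin_three] <;> ring
  · simp only [ofMV, e1, e2, cj, ent]
    apply ext8 <;> simp [Fin.sum_univ_three, Alb.mat, Alb.vec, Matrix.adjugate_fin_three] <;> ring
  · simp only [ofMV, e1, e2, cj, ent]
    apply ext8 <;> simp [Fin.sum_univ_three, Alb.mat, Alb.vec, Matrix.adjugate_fin_three] <;> ring

end act

section res

variable {k L : Type} [Field k] [NumberField k] [Field L] [NumberField L] [Algebra k L]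
  {ρ : L ≃ₐ[k] L} {lam : kˣ} {a b c a' b' c' : kˣ}

omit [NumberField k] [NumberField L] in
theorem inRes_iff_cj {z : Matrix (Fin 3) (Fin 3) L} (hz : z.det = 1) (hz0 : z.det ≠ 0)
    {m : (MQ L a b)ˣ} (hm : (m : MQ L a b) = toMQ z) :
    InRes ρ lam c m ↔ (cjE z hz0 : AlbL L a b c ≃ₗ[L] AlbL L a b c) ∈ Res ρ lam a b c := by
  constructor
  · intro h
    exact h _ fun x => (act_map hz hm x).symm
  · intro h φ hφ
    have e : φ = cjE z hz0 := by
      apply LinearEquiv.ext
      intro x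
      rw [hφ, cjE_apply]
      exact act_map hz hm x
    rw [e]
    exact h

omit [NumberField k] in
theorem trip_cj {i j l : Oct a b c} (ht : Trip a' b' c' i j l) (z : Matrix (Fin 3) (Fin 3) L)
    (hz0 : z.det ≠ 0) : ((tripA L ht).symm.trans (cjE z hz0)).trans (tripA L ht) = cjE z hz0 := by
  apply LinearEquiv.ext
  intro x
  obtain ⟨y, rfl⟩ : ∃ y, tripA L ht y = x := (tripA L ht).surjective x
  change tripA L ht (cjE z hz0 ((tripA L ht).symm (tripA L ht y))) = cjE z hz0 (tripA L ht y)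
  rw [LinearEquiv.symm_apply_apply, cjE_apply, cjE_apply]
  have h := tripO_mul (K := L) ht
  exact omapA_cj (tripO L ht).toLinearMap (hom_one h) (fun x => hom_star h x)
    (fun x y => hom_bil h x y) z y

/-- The elements of `D` in the different coordinates. -/
theorem cj_mem_iff {i j l : Oct a b c} (ht : Trip a' b' c' i j l) {z : Matrix (Fin 3) (Fin 3) L}
    (hz0 : z.det ≠ 0) :
    (cjE z hz0 : AlbL L a' b' c' ≃ₗ[L] AlbL L a' b' c') ∈ Res ρ lam a' b' c' ↔
      (cjE z hz0 : AlbL L a b c ≃ₗ[L] AlbL L a b c) ∈ Res ρ lam a b c := by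
  have h := (trip_Res (ρ := ρ) (lam := lam) ht (tripA_apply (K := L) ht)
    (φ := cjE z hz0)).2
  rwa [trip_cj] at h

theorem inRes_trip {i j l : Oct a b c} (ht : Trip a' b' c' i j l) {z : Matrix (Fin 3) (Fin 3) L}
    (hz : z.det = 1) {m : (MQ L a b)ˣ} (hm : (m : MQ L a b) = toMQ z) {m' : (MQ L a' b')ˣ}
    (hm' : (m' : MQ L a' b') = toMQ z) : InRes ρ lam c' m' ↔ InRes ρ lam c m := by
  have hz0 : z.det ≠ 0 := by rw [hz]; exact one_ne_zero
  rw [inRes_iff_cj hz hz0 hm, inRes_iff_cj hz hz0 hm']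
  exact cj_mem_iff ht hz0

omit [NumberField k] [NumberField L] in
/-- The hypotheses hold in the other coordinates. -/
theorem Hyp.trip [NeZero (2 : k)] (H : Hyp ρ lam a b c) {i j l : Oct a b c}
    (ht : Trip a' b' c' i j l) : Hyp ρ lam a' b' c' := by
  obtain ⟨Φ, -, -, -, hn⟩ := exists_emb ht
  refine ⟨H.h3, H.hρ, H.hlam, fun x hx => ?_⟩
  have h1 := H.hdiv (Φ x) (by rw [hn, hx])
  rw [← Φ.symm_apply_apply x, h1, map_zero]

end res

end Vale.Agent.P011.E6I
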