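import Vale.Agent.P011.E6I.H64.Rec2
import Vale.Agent.P011.E6I.H64.Trip
import Vale.Agent.P011.E6I.H64.Real
import Vale.Agent.P011.E6I.H369.Dk
import Vale.Agent.P011.E6I.Dens2
import Vale.Agent.P011.E6I.Fx

/-!
The elements of reduced norm one of `D` belong to the normal closure of the automorphism group of
the octonion algebra.
-/

open Matrix Topology

namespace Vale.Agent.P011.E6I

open Vale.Agent.P011.MPQ Vale.Agent.P011.D4 Vale.Agent.P011.D4.Oct Vale.Agent.P011.E6

section mat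

/-- A matrix of trace zero with a quadratic relation has discriminant zero. -/
theorem dz_of_quad {K : Type} [Field K] [CharZero K] {y : Matrix (Fin 3) (Fin 3) K}
    (h0 : y.trace = 0) (hy : ∀ t : K, y ≠ t • (1 : Matrix (Fin 3) (Fin 3) K)) {q1 q0 : K}
    (h : y * y = q1 • y + q0 • (1 : Matrix (Fin 3) (Fin 3) K)) : dz y = 0 := by
  have htr : (y * y).trace = 3 * q0 := by
    rw [h, Matrix.trace_add, Matrix.trace_smul, Matrix.trace_smul, h0, Matrix.trace_one]
    simp
    ring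
  have h3 : y * y * y = (q1 ^ 2 + q0) • y + (q1 * q0) • (1 : Matrix (Fin 3) (Fin 3) K) := by
    rw [h, add_mul, smul_mul_assoc, smul_mul_assoc, one_mul, h, smul_add, smul_smul, smul_smul]
    module
  have h4 := z_cube h0
  have hp : pz y = -(3 * q0) / 2 := by rw [pz, htr]
  have h5 : (q1 ^ 2 + q0 + pz y) • y = (-qz y - q1 * q0) • (1 : Matrix (Fin 3) (Fin 3) K) := by
    have h6 := h3.symm.trans h4
    have h7 : (q1 ^ 2 + q0 + pz y) • y - (-qz y - q1 * q0) • (1 : Matrix (Fin 3) (Fin 3) K) =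
        ((q1 ^ 2 + q0) • y + (q1 * q0) • (1 : Matrix (Fin 3) (Fin 3) K)) -
          (-(pz y • y) - qz y • (1 : Matrix (Fin 3) (Fin 3) K)) := by module
    rw [← sub_eq_zero, h7, h6, sub_self]
  have h6 : q1 ^ 2 + q0 + pz y = 0 := by
    by_contra hne
    apply hy ((q1 ^ 2 + q0 + pz y)⁻¹ * (-qz y - q1 * q0))
    rw [← smul_smul, ← h5, smul_smul, inv_mul_cancel₀ hne, one_smul]
  rw [h6, zero_smul] at h5
  have h7 : -qz y - q1 * q0 = 0 := by
    have h8 := congrFun (congrFun h5 0) 0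
    simpa using h8.symm
  have h8 : q0 = 2 * q1 ^ 2 := by
    rw [hp] at h6
    linear_combination (-2 : K) * h6
  have h9 : qz y = -2 * q1 ^ 3 := by
    rw [h8] at h7
    linear_combination -h7
  rw [dz, h9, hp, h8]
  ring

/-- The trace of `g⁻¹ - g`. -/
theorem trace_gam {K : Type} [Field K] {g : Matrix (Fin 3) (Fin 3) K} (hg : g.det = 1) :
    (g - 1).det = -(g.adjugate - g).trace := by
  have h : (g - 1).det = g.det - g.adjugate.trace + g.trace - 1 := by
    rw [Matrix.adjugate_fin_three, Matrix.trace_fin_three, Matrix.trace_fin_three,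
      Matrix.det_fin_three, Matrix.det_fin_three]
    simp
    ring
  rw [h, hg, Matrix.trace_sub]
  ring

/-- The matrix `g⁻¹ - g` is not scalar if the discriminant does not vanish. -/
theorem gam_scalar {K : Type} [Field K] [CharZero K] {g : Matrix (Fin 3) (Fin 3) K}
    (hg : g.det = 1) (hgk : ∀ t : K, g ≠ t • (1 : Matrix (Fin 3) (Fin 3) K))
    (hdz : dz (g - (g.trace / 3) • (1 : Matrix (Fin 3) (Fin 3) K)) ≠ 0) (t : K) :
    g.adjugate - g ≠ t • (1 : Matrix (Fin 3) (Fin 3) K) := by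
  intro h
  apply hdz
  obtain ⟨s, hs⟩ : ∃ s, s = g.trace / 3 := ⟨_, rfl⟩
  have hgg : g * g = 1 - t • g := by
    have h1 : g * (g.adjugate - g) = t • g := by rw [h, mul_smul_comm, mul_one]
    rw [mul_sub, Matrix.mul_adjugate, hg, one_smul] at h1
    rw [← h1]
    abel
  rw [← hs]
  refine dz_of_quad (q1 := -(t + 2 * s)) (q0 := 1 + s ^ 2 - (t + 2 * s) * s) ?_ ?_ ?_
  · rw [Matrix.trace_sub, Matrix.trace_smul, Matrix.trace_one, hs]
    simp
  · intro u hu
    apply hgk (u + s)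
    rw [sub_eq_iff_eq_add] at hu
    rw [hu, add_smul]
  · have e : (g - s • (1 : Matrix (Fin 3) (Fin 3) K)) * (g - s • 1) =
        g * g - (2 * s) • g + (s ^ 2) • 1 := by
      rw [sub_mul, mul_sub, mul_sub, smul_mul_assoc, smul_mul_assoc, one_mul, mul_smul_comm,
        mul_one, one_mul]
      module
    rw [e, hgg]
    module

end mat

section main

variable {k L : Type} [Field k] [NumberField k] [Field L] [NumberField L] [Algebra k L]
  {ρ : L ≃ₐ[k] L} {lam : kˣ} {a b c : kˣ}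

/-- The choice of the cubic subfield. -/
theorem exists_B (H : Hyp ρ lam a b c) {g : Matrix (Fin 3) (Fin 3) L} (hg : InD0 ρ lam g)
    (hdg : g.det = 1) (hgk : ∀ t : L, g ≠ t • (1 : Matrix (Fin 3) (Fin 3) L)) :
    ∃ (B : Matrix (Fin 3) (Fin 3) L) (p q g0 g1 g2 : k), InD0 ρ lam B ∧ Gn B p q ∧
      (g.adjugate - g).trace = algebraMap k L g0 ∧
      ((g.adjugate - g) * B).trace = algebraMap k L g1 ∧
      ((g.adjugate - g) * (B * B)).trace = algebraMap k L g2 ∧ g0 ≠ 0 ∧
      ∀ τ : k →+* ℝ, Dfn τ a b c → τ (cf p q g0 g1 g2) < 0 := by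
  have hγ : InD0 ρ lam (g.adjugate - g) := D0_sub (D0_adj hg) hg
  obtain ⟨γ, hγdef⟩ : ∃ γ, γ = g.adjugate - g := ⟨_, rfl⟩
  rw [← hγdef] at hγ ⊢
  have htr0 : γ.trace ≠ 0 := by
    intro h0
    have h1 := trace_gam hdg
    rw [← hγdef, h0, neg_zero] at h1
    refine det_ne_zero_D0 H (D0_sub hg D0_one) ?_ h1
    intro h2
    apply hgk 1
    rw [one_smul]
    exact sub_eq_zero.1 h2
  have hs : ρ (g.trace / 3) = g.trace / 3 := by
    rw [map_div₀, D0_trace hg, map_ofNat]
  have hgam : ∀ t : L, γ ≠ t • (1 : Matrix (Fin 3) (Fin 3) L) := by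
    rw [hγdef]
    apply gam_scalar hdg hgk
    apply dz_ne_zero H (D0_sub hg (D0_smul hs D0_one))
    · rw [Matrix.trace_sub, Matrix.trace_smul, Matrix.trace_one]
      simp
    · intro u hu
      apply hgk (u + g.trace / 3)
      rw [sub_eq_iff_eq_add] at hu
      rw [add_smul, ← hu]
  let T : Type := {τ : k →+* ℝ // Dfn τ a b c}
  have hT : Finite T := Subtype.finite
  choose w hw using fun t : T => exists_real_over (L := L) H.h3 t.1
  have hinj : Function.Injective fun t : T => (w t).comp (algebraMap k L) := by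
    intro s t hst
    have h1 : (w s).comp (algebraMap k L) = (w t).comp (algebraMap k L) := hst
    rw [hw, hw] at h1
    exact Subtype.ext h1
  have hA : ∀ t : T, ∃ b', gf (γ.map (w t)) b' < 0 := by
    intro t
    apply gf_neg
    · intro s hs
      apply hgam (γ 0 0)
      have hij : ∀ i j, w t (γ i j) = (s • (1 : Matrix (Fin 3) (Fin 3) ℝ)) i j := fun i j =>
        congrFun (congrFun hs i) j
      have h00 := hij 0 0
      have hw0 : ∀ x : L, w t x = 0 → x = 0 := fun x hx => (map_eq_zero (w t)).1 hx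
      ext i j
      have h1 := hij i j
      by_cases hne : i = j
      · subst hne
        simp only [Matrix.smul_apply, Matrix.one_apply_eq, smul_eq_mul, mul_one] at h00 h1 ⊢
        apply sub_eq_zero.1
        apply hw0
        rw [map_sub, h00, h1, sub_self]
      · simp only [Matrix.smul_apply, Matrix.one_apply_ne hne, smul_eq_mul, mul_zero] at h1 ⊢
        exact hw0 _ h1
    · intro h0
      apply htr0
      apply (map_eq_zero (w t)).1
      rw [← h0]
      simp [Matrix.trace_fin_three]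
  choose A hA using hA
  have hU : {M : T → Matrix (Fin 3) (Fin 3) ℝ | ∀ t, gf (γ.map (w t)) (M t) < 0} ∈ 𝓝 A := by
    apply Filter.eventually_all.2
    intro t
    have hc : Continuous fun M : T → Matrix (Fin 3) (Fin 3) ℝ => gf (γ.map (w t)) (M t) :=
      (continuous_gf _).comp (continuous_apply t)
    exact hc.continuousAt.eventually_lt_const (hA t)
  obtain ⟨ε, hε, hU⟩ := mem_nhds_pi_matrix hU
  obtain ⟨d, hd, hdA⟩ := exists_inD0 H.rho3 H.hρ lam hinj A hε
  have hneg : ∀ t : T, w t (gf γ d) < 0 := by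
    intro t
    rw [gf_map]
    exact hU (fun t => d.map (w t)) hdA t
  have hs2 : ρ (d.trace / 3) = d.trace / 3 := by
    rw [map_div₀, D0_trace hd, map_ofNat]
  have hB : InD0 ρ lam (d - (d.trace / 3) • (1 : Matrix (Fin 3) (Fin 3) L)) :=
    D0_sub hd (D0_smul hs2 D0_one)
  obtain ⟨B, hBdef⟩ : ∃ B, B = d - (d.trace / 3) • (1 : Matrix (Fin 3) (Fin 3) L) := ⟨_, rfl⟩
  rw [← hBdef] at hB
  have hBtr : B.trace = 0 := by
    rw [hBdef, Matrix.trace_sub, Matrix.trace_smul, Matrix.trace_one]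
    simp
  have hk : ∀ M : Matrix (Fin 3) (Fin 3) L, InD0 ρ lam M → ∃ s : k, M.trace = algebraMap k L s :=
    fun M hM => by
      obtain ⟨s, hs⟩ := H.fix (D0_trace hM)
      exact ⟨s, hs.symm⟩
  obtain ⟨p', hp'⟩ := hk _ (D0_mul hB hB)
  obtain ⟨q, hq⟩ := H.fix (D0_det hB)
  obtain ⟨g0, hg0⟩ := hk _ hγ
  obtain ⟨g1, hg1⟩ := hk _ (D0_mul hγ hB)
  obtain ⟨g2, hg2⟩ := hk _ (D0_mul hγ (D0_mul hB hB))
  have hp2 : algebraMap k L (p' / 2) = (B * B).trace / 2 := by
    rw [map_div₀, ← hp', map_ofNat]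
  refine ⟨B, p' / 2, q, g0, g1, g2, hB, ⟨hBtr, ?_, hq.symm⟩, hg0, hg1, hg2, ?_, ?_⟩
  · rw [hp']
    congr 1
    ring
  · intro h0
    apply htr0
    rw [hg0, h0, map_zero]
  · intro τ hτ
    have h1 := hneg ⟨τ, hτ⟩
    have h2 : gf γ d = algebraMap k L (cf (p' / 2) q g0 g1 g2) := by
      rw [gf, ← hBdef, cf_map, hp2, hq, ← hg0, ← hg1, ← hg2]
    rw [h2] at h1
    have h3 : (w ⟨τ, hτ⟩) (algebraMap k L (cf (p' / 2) q g0 g1 g2)) =
        τ (cf (p' / 2) q g0 g1 g2) := RingHom.congr_fun (hw ⟨τ, hτ⟩) _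
    rwa [h3] at h1

omit [NumberField k] in
theorem i_sq (a b : kˣ) : (⟨0, 1, 0, 0⟩ : Qt a b) * ⟨0, 1, 0, 0⟩ = (a : k) • (1 : Qt a b) := by
  ext <;> simp

omit [NumberField k] in
theorem trC_lin (p q : k) (x y : Fin 3 → k) : trC p (mulC p q x y) =
    y 0 * trC p x + y 1 * trC p (mulC p q x ![0, 1, 0]) +
      y 2 * trC p (mulC p q x ![0, 0, 1]) := by
  simp [trC]
  ring

/-- The case of an element which is not scalar. -/
theorem inRes_D_ne (H : Hyp ρ lam a b c) {g : Matrix (Fin 3) (Fin 3) L} (hg : InD0 ρ lam g)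
    (hdg : g.det = 1) (hgk : ∀ t : L, g ≠ t • (1 : Matrix (Fin 3) (Fin 3) L)) {m : (MQ L a b)ˣ}
    (hm : (m : MQ L a b) = toMQ g) : InRes ρ lam c m := by
  obtain ⟨B, p, q, g0, g1, g2, hB, hBG, h0, h1, h2, hg0, hneg⟩ := exists_B H hg hdg hgk
  obtain ⟨φ₀, hφ₀⟩ := exists_dfn H.hdiv
  have hC0 : cf p q g0 g1 g2 ≠ 0 := by
    intro h
    have := hneg φ₀ hφ₀
    rw [h, map_zero] at this
    exact lt_irrefl _ this
  have hD : dsC p q ≠ 0 := by
    intro h
    apply hC0
    rw [cf, h]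
    ring
  obtain ⟨X, hXdef⟩ : ∃ X, X = crm p q g0 g1 g2 := ⟨_, rfl⟩
  have hXtr : trC p X = dsC p q * g0 := by rw [hXdef, trC_crm]
  have hX : nmC p q X ≠ 0 := by
    intro h
    have e1 := hBG.det_ev X
    rw [h, map_zero] at e1
    refine det_ne_zero_D0 H (inD0_ev hB X) ?_ e1
    intro e2
    have e3 := hBG.trace_ev X
    rw [e2, Matrix.trace_zero, hXtr] at e3
    exact mul_ne_zero hD hg0 ((map_eq_zero _).1 e3.symm)
  have hC : Cc p q (mulC p q (mulC p q X X) ![1, 0, 0]) = cf p q g0 g1 g2 := by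
    rw [mulC_one, cf_eq, hXdef]
  have hev1 : ev B (![1, 0, 0] : Fin 3 → k) = 1 := ev_one B
  have ht : ∀ y : Fin 3 → k, trace (ev B X * ev B y) =
      algebraMap k L (dsC p q) * trace ((g.adjugate - (ev B (![1, 0, 0] : Fin 3 → k)).adjugate * g) *
        ev B y) := by
    intro y
    rw [hev1, Matrix.adjugate_one, one_mul, ev_mul hBG.cube, hBG.trace_ev, trC_lin, hXdef, trC_crm,
      trC_crm1, trC_crm2, ev, mul_add, mul_add, Matrix.trace_add, Matrix.trace_add, mul_smul_comm,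
      mul_smul_comm, mul_smul_comm, mul_one, Matrix.trace_smul, Matrix.trace_smul,
      Matrix.trace_smul, h0, h1, h2]
    simp only [Algebra.smul_def, map_add, map_mul]
    ring
  obtain ⟨b', c', i, j, l, htr⟩ := exists_trip_sq H.hdiv (Units.mk0 _ hC0) hneg
  have H' := H.trip htr
  obtain ⟨w, hwdef⟩ : ∃ w : Qt (Units.mk0 _ hC0) b', w = ⟨0, 1, 0, 0⟩ := ⟨_, rfl⟩
  have hw : w.re = 0 := by rw [hwdef]
  have hw0 : w ≠ 0 := by
    intro h
    have := congrArg QuaternionAlgebra.imI h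
    rw [hwdef] at this
    exact one_ne_zero this
  have hw2 : w * w = Cc p q (mulC p q (mulC p q X X) ![1, 0, 0]) • (1 : Qt _ b') := by
    rw [hC, hwdef]
    exact i_sq _ _
  obtain ⟨P, R, q1, gU, hq1, hgU, hPR, hnu, hD1, hnu1, hres⟩ :=
    exists_q1 H' hBG hB hg hdg (nmC_one p q) hX hD ht hD hw hw0 hw2
  have hwn := nrd_pure hw2 hw
  have hBk : ∀ t : L, B ≠ t • (1 : Matrix (Fin 3) (Fin 3) L) := by
    intro t h
    have e1 := hBG.tr
    rw [h, Matrix.trace_smul, Matrix.trace_one] at e1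
    have e2 : t = 0 := by
      have e3 : t * 3 = 0 := by simpa using e1
      exact (mul_eq_zero.1 e3).resolve_right (by norm_num)
    have e3 : B = 0 := by rw [h, e2, zero_smul]
    have e4 := hBG.tr2
    have e5 := hBG.dt
    rw [e3, mul_zero, Matrix.trace_zero] at e4
    rw [e3, Matrix.det_zero] at e5
    have e6 : (2 : k) * p = 0 := (map_eq_zero _).1 e4.symm
    have e7 : p = 0 := (mul_eq_zero.1 e6).resolve_left two_ne_zero
    have e8 : q = 0 := (map_eq_zero _).1 e5.symm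
    apply hD
    rw [dsC, e7, e8]
    ring
  have hres1 : InRes ρ lam c' q1 := by
    apply cubic_Res H' hB hBk
    · rw [hq1]
      exact (fw_mem hB P R w).1
    · rw [hq1]
      exact fw_comm P R w rfl
    · intro S _ hS2
      rw [hq1, fw_act hBG.cube hw hwn P R hS2, hPR, hev1, one_mul]
  have hres2 := InRes.mul H' hD1 hnu1 (by
    rw [hq1]
    exact (fw_mem hB P R w).1) hnu hres hres1
  rw [inv_mul_cancel_right] at hres2
  exact (inRes_trip htr hdg hm hgU).1 hres2

omit [NumberField k] [NumberField L] in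
theorem inRes_one {m : (MQ L a b)ˣ} (hm : (m : MQ L a b) = 1) : InRes ρ lam c m := by
  intro φ hφ
  have h2 : φ = 1 := by
    apply LinearEquiv.ext
    intro x
    have h3 : (m : MQ L a b) = (1 : Matrix (Fin 3) (Fin 3) L).map (algebraMap L _) := by
      rw [hm]
      exact toMQ_one.symm
    rw [hφ, act_map Matrix.det_one h3, cj_one]
    rfl
  rw [h2]
  exact one_mem _

/-- The element `-1`. -/
theorem inRes_neg_one (H : Hyp ρ lam a b c) {m : (MQ L a b)ˣ} (hm : (m : MQ L a b) = -1) :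
    InRes ρ lam c m := by
  intro φ hφ
  have h1 : m = -1 := Units.ext hm
  have h2 : φ = (autI ρ lam a b c (long a b c (negS a b))).1 := by
    apply LinearEquiv.ext
    intro x
    rw [hφ, autI_negS, h1]
    simp only [Alb.act, Units.val_neg, Units.val_one, neg_mul, one_mul, inv_neg, inv_one,
      Matrix.conjTranspose_neg, Matrix.conjTranspose_one, mul_neg, mul_one, neg_neg,
      Matrix.vecMul_neg, Matrix.vecMul_one, Pi.neg_apply]
  rw [h2]
  exact aut_Res H _ (autI_aup _)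

/-- The case of determinant one. -/
theorem inRes_D_one (H : Hyp ρ lam a b c) {g : Matrix (Fin 3) (Fin 3) L} (hg : InD0 ρ lam g)
    (hdg : g.det = 1) {m : (MQ L a b)ˣ} (hm : (m : MQ L a b) = toMQ g) : InRes ρ lam c m := by
  by_cases hgk : ∀ t : L, g ≠ t • (1 : Matrix (Fin 3) (Fin 3) L)
  · exact inRes_D_ne H hg hdg hgk hm
  · push Not at hgk
    obtain ⟨t, ht⟩ := hgk
    have h1 : t ^ 3 = 1 := by
      rw [ht, Matrix.det_smul, Matrix.det_one, mul_one, Fintype.card_fin] at hdg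
      exact hdg
    have h2 : ρ t = t := by
      have e1 := D0_trace hg
      rw [ht, Matrix.trace_smul, Matrix.trace_one, smul_eq_mul, Fintype.card_fin, map_mul,
        map_natCast] at e1
      exact mul_right_cancel₀ (Nat.cast_ne_zero.2 (by norm_num)) e1
    obtain ⟨s, hs⟩ := H.fix h2
    obtain ⟨φ, -⟩ := exists_dfn H.hdiv
    have h3 : s ^ 3 = 1 := (algebraMap k L).injective (by rw [map_pow, hs, h1, map_one])
    have h4 : φ s ^ 3 = 1 := by rw [← map_pow, h3, map_one]
    have h5 : φ s = 1 := by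
      have h6 : (φ s - 1) * ((φ s) ^ 2 + φ s + 1) = 0 := by linear_combination h4
      rcases mul_eq_zero.1 h6 with h | h
      · linarith
      · nlinarith [sq_nonneg (φ s + 1 / 2)]
    have h6 : s = 1 := φ.injective (by rw [h5, map_one])
    apply inRes_one
    rw [hm, ht, ← hs, h6, map_one, one_smul, toMQ_one]

/-- **Row (a)**: the group of elements of reduced norm one of `D`. -/
theorem inRes_D (H : Hyp ρ lam a b c) {z : (Matrix (Fin 3) (Fin 3) L)ˣ}
    (hz : InD0 ρ lam (z : Matrix (Fin 3) (Fin 3) L)) {m : (MQ L a b)ˣ}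
    (hm : (m : MQ L a b) = toMQ (z : Matrix (Fin 3) (Fin 3) L)) (hn : nu (m : MQ L a b) = 1) :
    InRes ρ lam c m := by
  rw [hm, nu_toMQ, sq] at hn
  rcases mul_self_eq_one_iff.1 hn with h | h
  · exact inRes_D_one H hz h hm
  · have h1 : InD0 ρ lam (-(z : Matrix (Fin 3) (Fin 3) L)) := by
      rw [← neg_one_smul L (z : Matrix (Fin 3) (Fin 3) L)]
      exact D0_smul (by rw [map_neg, map_one]) hz
    have h2 : (-(z : Matrix (Fin 3) (Fin 3) L)).det = 1 := by
      rw [Matrix.det_neg, h, Fintype.card_fin]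
      norm_num
    have h3 : ((-m : (MQ L a b)ˣ) : MQ L a b) = toMQ (-(z : Matrix (Fin 3) (Fin 3) L)) := by
      rw [Units.val_neg, hm, toMQ_neg]
    have h4 := inRes_D_one H h1 h2 h3
    have h5 : ((-1 : (MQ L a b)ˣ) : MQ L a b) = -1 := by rw [Units.val_neg, Units.val_one]
    have h6 : (-1 : MQ L a b) = toMQ (-1) := by rw [toMQ_neg, toMQ_one]
    have h7 : InD0 ρ lam (-1 : Matrix (Fin 3) (Fin 3) L) := by
      rw [← neg_one_smul L (1 : Matrix (Fin 3) (Fin 3) L)]
      exact D0_smul (by rw [map_neg, map_one]) D0_one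
    have h8 := InRes.mul H (x := -1) (y := -m) (by rw [h5, h6]; exact inD_toMQ.2 h7)
      (by rw [h5, h6, nu_toMQ, Matrix.det_neg, Matrix.det_one, Fintype.card_fin]; norm_num)
      (by rw [h3]; exact inD_toMQ.2 h1) (by rw [h3, nu_toMQ, h2, one_pow])
      (inRes_neg_one H h5) h4
    rwa [neg_mul_neg, one_mul] at h8

end main

end Vale.Agent.P011.E6I
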