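import Vale.Agent.P011.MathlibUsed

/-!
The quadratic equation for a cubic algebra: an element with square norm becomes a norm of an element
of trace zero from the quadratic extension given by the area of the triangle whose sides have the
squares of lengths given by the conjugates of the element.
-/

namespace Vale.Agent.P011.E6I

section defs

variable {k : Type} [Field k]

/-- The product in `k[X]/(X³ - p X - q)`. -/
def mulC (p q : k) (x y : Fin 3 → k) : Fin 3 → k :=
  ![x 0 * y 0 + q * (x 1 * y 2 + x 2 * y 1),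
    x 0 * y 1 + x 1 * y 0 + p * (x 1 * y 2 + x 2 * y 1) + q * (x 2 * y 2),
    x 0 * y 2 + x 1 * y 1 + x 2 * y 0 + p * (x 2 * y 2)]

/-- The trace in `k[X]/(X³ - p X - q)`. -/
def trC (p : k) (x : Fin 3 → k) : k := 3 * x 0 + 2 * p * x 2

/-- The norm in `k[X]/(X³ - p X - q)`. -/
def nmC (p q : k) (x : Fin 3 → k) : k :=
  x 0 ^ 3 + 2 * p * x 0 ^ 2 * x 2 - p * x 0 * x 1 ^ 2 - 3 * q * x 0 * x 1 * x 2 +
    p ^ 2 * x 0 * x 2 ^ 2 + q * x 1 ^ 3 - p * q * x 1 * x 2 ^ 2 + q ^ 2 * x 2 ^ 3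

/-- The derivative of the norm. -/
def nmP (p q : k) (x y : Fin 3 → k) : k :=
  3 * x 0 ^ 2 * y 0 + 2 * p * (2 * x 0 * y 0 * x 2 + x 0 ^ 2 * y 2) -
    p * (y 0 * x 1 ^ 2 + 2 * x 0 * x 1 * y 1) -
    3 * q * (y 0 * x 1 * x 2 + x 0 * y 1 * x 2 + x 0 * x 1 * y 2) +
    p ^ 2 * (y 0 * x 2 ^ 2 + 2 * x 0 * x 2 * y 2) + 3 * q * x 1 ^ 2 * y 1 -
    p * q * (y 1 * x 2 ^ 2 + 2 * x 1 * x 2 * y 2) + 3 * q ^ 2 * x 2 ^ 2 * y 2

/-- The discriminant. -/
def dsC (p q : k) : k := 4 * p ^ 3 - 27 * q ^ 2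

/-- The discriminant times the square of four times the area, with the opposite sign. -/
def Cc (p q : k) (f : Fin 3 → k) : k :=
  dsC p q * (2 * trC p (mulC p q f f) - trC p f ^ 2)

@[simp] theorem mulC_zero' (p q : k) (x y : Fin 3 → k) :
    mulC p q x y 0 = x 0 * y 0 + q * (x 1 * y 2 + x 2 * y 1) := rfl

@[simp] theorem mulC_one' (p q : k) (x y : Fin 3 → k) :
    mulC p q x y 1 = x 0 * y 1 + x 1 * y 0 + p * (x 1 * y 2 + x 2 * y 1) + q * (x 2 * y 2) := rfl

@[simp] theorem mulC_two' (p q : k) (x y : Fin 3 → k) :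
    mulC p q x y 2 = x 0 * y 2 + x 1 * y 1 + x 2 * y 0 + p * (x 2 * y 2) := rfl

omit [Field k] in
theorem ext3 {x y : Fin 3 → k} (h0 : x 0 = y 0) (h1 : x 1 = y 1) (h2 : x 2 = y 2) : x = y := by
  funext i
  fin_cases i
  · exact h0
  · exact h1
  · exact h2

theorem mulC_comm (p q : k) (x y : Fin 3 → k) : mulC p q x y = mulC p q y x := by
  apply ext3 <;> simp only [mulC_zero', mulC_one', mulC_two'] <;> ring

theorem mulC_assoc (p q : k) (x y z : Fin 3 → k) :
    mulC p q (mulC p q x y) z = mulC p q x (mulC p q y z) := by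
  apply ext3 <;> simp only [mulC_zero', mulC_one', mulC_two'] <;> ring

theorem mulC_one (p q : k) (x : Fin 3 → k) : mulC p q x ![1, 0, 0] = x := by
  apply ext3 <;> simp

theorem mulC_smul (p q t : k) (x y : Fin 3 → k) : mulC p q x (t • y) = t • mulC p q x y := by
  apply ext3 <;> simp only [mulC_zero', mulC_one', mulC_two', Pi.smul_apply, smul_eq_mul] <;> ring

theorem smul_mulC (p q t : k) (x y : Fin 3 → k) : mulC p q (t • x) y = t • mulC p q x y := by
  rw [mulC_comm, mulC_smul, mulC_comm]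

theorem mulC_add (p q : k) (x y z : Fin 3 → k) :
    mulC p q x (y + z) = mulC p q x y + mulC p q x z := by
  apply ext3 <;> simp only [mulC_zero', mulC_one', mulC_two', Pi.add_apply] <;> ring

theorem nmC_mul (p q : k) (x y : Fin 3 → k) :
    nmC p q (mulC p q x y) = nmC p q x * nmC p q y := by
  simp only [nmC, mulC_zero', mulC_one', mulC_two']
  ring

theorem nmC_smul (p q t : k) (x : Fin 3 → k) : nmC p q (t • x) = t ^ 3 * nmC p q x := by
  simp only [nmC, Pi.smul_apply, smul_eq_mul]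
  ring

theorem nmC_one (p q : k) : nmC p q ![1, 0, 0] = 1 := by
  simp [nmC]

theorem trC_smul (p t : k) (x : Fin 3 → k) : trC p (t • x) = t * trC p x := by
  simp only [trC, Pi.smul_apply, smul_eq_mul]
  ring

theorem trC_sub (p : k) (x y : Fin 3 → k) : trC p (x - y) = trC p x - trC p y := by
  simp only [trC, Pi.sub_apply]
  ring

/-- The adjugate. -/
def adC (p q : k) (x : Fin 3 → k) : Fin 3 → k :=
  ![x 0 ^ 2 + 2 * p * x 0 * x 2 - q * x 1 * x 2 + p ^ 2 * x 2 ^ 2 - p * x 1 ^ 2,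
    -x 0 * x 1 + q * x 2 ^ 2, x 1 ^ 2 - x 0 * x 2 - p * x 2 ^ 2]

theorem mulC_adC (p q : k) (x : Fin 3 → k) : mulC p q x (adC p q x) = nmC p q x • ![1, 0, 0] := by
  apply ext3 <;> simp [mulC, adC, nmC] <;> ring

/-- The norm in the quadratic extension. -/
theorem nm_quad (p q C : k) (x y : Fin 3 → k) :
    (nmC p q x + C * nmP p q y x) ^ 2 - C * (nmP p q x y + C * nmC p q y) ^ 2 =
      nmC p q (mulC p q x x - C • mulC p q y y) := by
  simp only [nmC, nmP, mulC_zero', mulC_one', mulC_two', Pi.sub_apply, Pi.smul_apply, smul_eq_mul]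
  ring

/-- The combination used for the division by an element of the quadratic extension. -/
theorem quad_comb (p q C m n t : k) (x y : Fin 3 → k) :
    mulC p q (t • (m • x - (C * n) • y)) (t • (m • x - (C * n) • y)) -
      C • mulC p q (t • (m • y - n • x)) (t • (m • y - n • x)) =
      (t ^ 2 * (m ^ 2 - C * n ^ 2)) • (mulC p q x x - C • mulC p q y y) := by
  apply ext3 <;> simp only [mulC_zero', mulC_one', mulC_two', Pi.sub_apply, Pi.smul_apply,
    smul_eq_mul] <;> ring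

/-- The element `D/(3 b² - p)`. -/
def eC (p q : k) : Fin 3 → k := ![-4 * p ^ 2, -9 * q, 6 * p]

/-- The rational part of the numerator. -/
def aC (p q : k) (f : Fin 3 → k) : Fin 3 → k :=
  dsC p q • ((6 : k) • mulC p q ![0, 1, 0] f - trC p f • ![0, 1, 0] -
    (2 * trC p (mulC p q ![0, 1, 0] f)) • ![1, 0, 0])

/-- The norm of the numerator. -/
def nC (p q : k) (f : Fin 3 → k) : k :=
  dsC p q ^ 2 * (4 * (3 * trC p (mulC p q ![0, 0, 1] f) - p * trC p f))

theorem trC_eC (p q : k) : trC p (eC p q) = 0 := by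
  simp [trC, eC]
  ring

theorem trC_aC (p q : k) (f : Fin 3 → k) : trC p (aC p q f) = 0 := by
  simp [trC, aC, mulC]
  ring

theorem nmC_eC (p q : k) : nmC p q (eC p q) = -dsC p q ^ 2 := by
  simp [nmC, eC, dsC]
  ring

theorem numer (p q : k) (f : Fin 3 → k) :
    mulC p q (aC p q f) (aC p q f) - Cc p q f • mulC p q (eC p q) (eC p q) = nC p q f • f := by
  apply ext3 <;> simp [mulC, aC, eC, nC, Cc, dsC, trC] <;> ring

/-- **The lemma of Heron.** -/
theorem heron {p q : k} (hD : dsC p q ≠ 0) (f : Fin 3 → k) {s : k} (hs : s ≠ 0)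
    (hN : nmC p q f = s ^ 2) (hC : ∀ y, y ^ 2 ≠ Cc p q f) :
    ∃ x y : Fin 3 → k, trC p x = 0 ∧ trC p y = 0 ∧
      mulC p q x x - Cc p q f • mulC p q y y = f := by
  have hn : nC p q f ≠ 0 := by
    intro h0
    have h1 := numer p q f
    rw [h0, zero_smul, sub_eq_zero] at h1
    have h2 := congrArg (nmC p q) h1
    rw [nmC_mul, nmC_smul, nmC_mul, nmC_eC] at h2
    have hC0 : Cc p q f ≠ 0 := fun h => hC 0 (by rw [h]; ring)
    apply hC (nmC p q (aC p q f) / (Cc p q f * dsC p q ^ 2))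
    rw [div_pow, div_eq_iff (pow_ne_zero 2 (mul_ne_zero hC0 (pow_ne_zero 2 hD)))]
    linear_combination h2
  have h3 := nm_quad p q (Cc p q f) (aC p q f) (eC p q)
  rw [numer, nmC_smul, hN] at h3
  refine ⟨(nC p q f ^ 2 * s)⁻¹ • ((nmC p q (aC p q f) + Cc p q f * nmP p q (eC p q) (aC p q f)) •
    aC p q f - (Cc p q f * (nmP p q (aC p q f) (eC p q) + Cc p q f * nmC p q (eC p q))) •
    eC p q), (nC p q f ^ 2 * s)⁻¹ • ((nmC p q (aC p q f) + Cc p q f *
    nmP p q (eC p q) (aC p q f)) • eC p q - (nmP p q (aC p q f) (eC p q) + Cc p q f *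
    nmC p q (eC p q)) • aC p q f), ?_, ?_, ?_⟩
  · rw [trC_smul, trC_sub, trC_smul, trC_smul, trC_aC, trC_eC]
    ring
  · rw [trC_smul, trC_sub, trC_smul, trC_smul, trC_aC, trC_eC]
    ring
  · rw [quad_comb, numer, h3, smul_smul]
    have e : (nC p q f ^ 2 * s)⁻¹ ^ 2 * (nC p q f ^ 3 * s ^ 2) * nC p q f = 1 := by
      field_simp
    rw [e, one_smul]

end defs

end Vale.Agent.P011.E6I
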