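import Vale.Agent.P011.E6I.H64.Heron

/-!
Matrices of degree three with given characteristic polynomial.
-/

open Matrix

namespace Vale.Agent.P011.E6I

section ev

variable {k R : Type} [Field k] [Ring R] [Algebra k R]

/-- The value of a polynomial of degree two. -/
def ev (B : R) (x : Fin 3 → k) : R := x 0 • 1 + x 1 • B + x 2 • (B * B)

theorem ev_mul {B : R} {p q : k} (hB : B * B * B = p • B + q • 1) (x y : Fin 3 → k) :
    ev B x * ev B y = ev B (mulC p q x y) := by
  simp only [ev, mulC_zero', mulC_one', mulC_two']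
  simp only [mul_add, add_mul, smul_mul_assoc, mul_smul_comm, mul_one, one_mul, ← mul_assoc,
    hB, smul_add, smul_smul, add_smul]
  module

theorem ev_add (B : R) (x y : Fin 3 → k) : ev B (x + y) = ev B x + ev B y := by
  simp only [ev, Pi.add_apply, add_smul]
  abel

theorem ev_smul (B : R) (t : k) (x : Fin 3 → k) : ev B (t • x) = t • ev B x := by
  simp only [ev, Pi.smul_apply, smul_eq_mul, mul_smul, smul_add]

theorem ev_sub (B : R) (x y : Fin 3 → k) : ev B (x - y) = ev B x - ev B y := by
  simp only [ev, Pi.sub_apply, sub_smul]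
  abel

theorem ev_one (B : R) : ev B (![1, 0, 0] : Fin 3 → k) = 1 := by
  simp [ev]

theorem ev_gen (B : R) : ev B (![0, 1, 0] : Fin 3 → k) = B := by
  simp [ev]

theorem ev_sq (B : R) : ev B (![0, 0, 1] : Fin 3 → k) = B * B := by
  simp [ev]

theorem ev_comm {B C : R} (h : C * B = B * C) (x : Fin 3 → k) : C * ev B x = ev B x * C := by
  have h2 : C * (B * B) = B * B * C := by rw [← mul_assoc, h, mul_assoc, h, mul_assoc]
  simp only [ev, mul_add, add_mul, mul_smul_comm, smul_mul_assoc, mul_one, one_mul, h, h2]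

end ev

section mat

variable {k L : Type} [Field k] [Field L] [Algebra k L]

/-- The theorem of Cayley and Hamilton in degree three. -/
theorem cayley3 {L : Type} [CommRing L] (B : Matrix (Fin 3) (Fin 3) L) :
    (2 : L) • (B * B * B) - (2 * trace B) • (B * B) + (trace B ^ 2 - trace (B * B)) • B -
      (2 * det B) • 1 = 0 := by
  ext i j
  fin_cases i <;> fin_cases j <;>
    simp [Matrix.mul_apply, Fin.sum_univ_three, det_fin_three, Matrix.trace_fin_three] <;> ring

/-- A matrix with characteristic polynomial `X³ - p X - q`. -/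
structure Gn (B : Matrix (Fin 3) (Fin 3) L) (p q : k) : Prop where
  /-- trace -/
  tr : trace B = 0
  /-- trace of the square -/
  tr2 : trace (B * B) = algebraMap k L (2 * p)
  /-- determinant -/
  dt : det B = algebraMap k L q

theorem Gn.cube [NeZero (2 : L)] {B : Matrix (Fin 3) (Fin 3) L} {p q : k} (h : Gn B p q) :
    B * B * B = p • B + q • 1 := by
  have h1 := cayley3 B
  rw [h.tr, h.tr2, h.dt] at h1
  have h2 : (2 : L) • (B * B * B) = (2 : L) • (p • B + q • (1 : Matrix (Fin 3) (Fin 3) L)) := by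
    rw [← sub_eq_zero, ← h1]
    rw [smul_add, ← algebraMap_smul L p, ← algebraMap_smul L q, smul_smul, smul_smul, map_mul,
      map_ofNat]
    module
  exact smul_right_injective _ (NeZero.ne (2 : L)) h2

theorem Gn.trace_ev {B : Matrix (Fin 3) (Fin 3) L} {p q : k} (h : Gn B p q) (x : Fin 3 → k) :
    trace (ev B x) = algebraMap k L (trC p x) := by
  rw [ev, trace_add, trace_add, trace_smul, trace_smul, trace_smul, h.tr, h.tr2, trace_one, trC]
  simp only [Algebra.smul_def, map_mul, map_add, Fintype.card_fin, map_ofNat, mul_zero, add_zero,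
    Nat.cast_ofNat]
  ring

theorem det_ev0 {L : Type} [Field L] (a b c d e f g h x y z p q : L)
    (hp : p = a ^ 2 + e ^ 2 + a * e + b * d + c * g + f * h)
    (hq : q = (!![a, b, c; d, e, f; g, h, -a - e] : Matrix (Fin 3) (Fin 3) L).det) :
    (x • (1 : Matrix (Fin 3) (Fin 3) L) + y • !![a, b, c; d, e, f; g, h, -a - e] +
      z • (!![a, b, c; d, e, f; g, h, -a - e] * !![a, b, c; d, e, f; g, h, -a - e])).det =
      x ^ 3 + 2 * p * x ^ 2 * z - p * x * y ^ 2 - 3 * q * x * y * z +
    p ^ 2 * x * z ^ 2 + q * y ^ 3 - p * q * y * z ^ 2 + q ^ 2 * z ^ 3 := by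
  rw [det_fin_three] at hq
  rw [det_fin_three]
  simp at hq ⊢
  subst hp
  subst hq
  ring

theorem Gn.det_ev [NeZero (2 : L)] {B : Matrix (Fin 3) (Fin 3) L} {p q : k} (h : Gn B p q)
    (x : Fin 3 → k) : (ev B x).det = algebraMap k L (nmC p q x) := by
  have ht := h.tr
  rw [Matrix.trace_fin_three] at ht
  have h22 : B 2 2 = -B 0 0 - B 1 1 := by linear_combination ht
  have hB : B = !![B 0 0, B 0 1, B 0 2; B 1 0, B 1 1, B 1 2; B 2 0, B 2 1, -B 0 0 - B 1 1] := by
    rw [← h22]
    ext i j
    fin_cases i <;> fin_cases j <;> rfl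
  have h2 := h.tr2
  have h3 := h.dt
  have hp : algebraMap k L p = B 0 0 ^ 2 + B 1 1 ^ 2 + B 0 0 * B 1 1 + B 0 1 * B 1 0 +
      B 0 2 * B 2 0 + B 1 2 * B 2 1 := by
    rw [Matrix.trace_fin_three, map_mul, map_ofNat] at h2
    simp only [Matrix.mul_apply, Fin.sum_univ_three] at h2
    rw [h22] at h2
    apply mul_left_cancel₀ (NeZero.ne (2 : L))
    rw [← h2]
    ring
  have key := det_ev0 (B 0 0) (B 0 1) (B 0 2) (B 1 0) (B 1 1) (B 1 2) (B 2 0) (B 2 1)
    (algebraMap k L (x 0)) (algebraMap k L (x 1)) (algebraMap k L (x 2)) _ _ hp rfl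
  rw [← hB, h3] at key
  rw [ev, ← algebraMap_smul L (x 0), ← algebraMap_smul L (x 1), ← algebraMap_smul L (x 2), key,
    nmC]
  simp only [map_add, map_sub, map_mul, map_pow, map_ofNat]

end mat

end Vale.Agent.P011.E6I
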