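import Vale.Agent.P011.E6I.H637.Base2
import Vale.Agent.P011.E6I.H64.Mat
import Vale.Agent.P011.E6.Spread0
import Vale.Agent.P011.E6.FixB

/-!
The reduction of an element of `D` to a reciprocal element of `D ⊗ k(w)` and to an element of the
quadratic extension of a cubic subfield.
-/

open Matrix

namespace Vale.Agent.P011.E6I

open Vale.Agent.P011.MPQ Vale.Agent.P011.D4 Vale.Agent.P011.D4.Oct Vale.Agent.P011.E6

section gen

variable {k L : Type} [Field k] [Field L] [Algebra k L] {ρ : L ≃ₐ[k] L} {lam : kˣ} {a b : kˣ}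

theorem toMQ_conjT (x : Matrix (Fin 3) (Fin 3) L) : (toMQ x : MQ L a b)ᴴ = toMQ xᵀ := by
  apply Matrix.ext
  intro i j
  simp only [toMQ, Matrix.conjTranspose_apply, Matrix.map_apply, Matrix.transpose_apply, star_alg]

theorem sc_conjT {w : Qt a b} (hw : w.re = 0) : (sc L w : MQ L a b)ᴴ = -sc L w := by
  have h : star w = -w := by ext <;> simp [hw]
  rw [← sc_neg, ← h, sc, sc, Matrix.diagonal_conjTranspose]
  congr 1
  funext i
  exact (qup_star w).symm

theorem trace_toMQ (x : Matrix (Fin 3) (Fin 3) L) :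
    trace (toMQ x : MQ L a b) = algebraMap L _ (trace x) := by
  rw [Matrix.trace, Matrix.trace, map_sum]
  rfl

theorem trace_toMQ_sc (x : Matrix (Fin 3) (Fin 3) L) (w : Qt a b) :
    trace (toMQ x * sc L w : MQ L a b) = algebraMap L _ (trace x) * qup L w := by
  rw [Matrix.trace, Matrix.trace, map_sum, Finset.sum_mul]
  apply Finset.sum_congr rfl
  intro i _
  simp only [Matrix.diag_apply, sc, Matrix.mul_diagonal, toMQ, Matrix.map_apply]

variable {B : Matrix (Fin 3) (Fin 3) L} {p q : k}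

/-- The elements of `F(w)`. -/
def fw (B : Matrix (Fin 3) (Fin 3) L) (P R : Fin 3 → k) (w : Qt a b) : MQ L a b :=
  toMQ (ev B P) + toMQ (ev B R) * sc L w

theorem toMQ_ev_mul (hB : B * B * B = p • B + q • 1) (x y : Fin 3 → k) :
    (toMQ (ev B x) : MQ L a b) * toMQ (ev B y) = toMQ (ev B (mulC p q x y)) := by
  rw [← toMQ_mul, ev_mul hB]

theorem fw_mul_bar (hB : B * B * B = p • B + q • 1) {w : Qt a b} {C : k}
    (hw : w.re = 0) (hw2 : -nrd w = C) (P R : Fin 3 → k) :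
    fw B P R w * fw B P (-R) w = toMQ (ev B (mulC p q P P - C • mulC p q R R)) := by
  have h1 : sc L w * sc L w = C • (1 : MQ L a b) := by rw [sc_sq hw, hw2]
  have h2 : ∀ x : Fin 3 → k, sc L w * toMQ (ev B x) = toMQ (ev B x) * sc L w :=
    fun x => sc_comm _ _
  have h3 : ev B (-R) = -ev B R := by
    rw [← neg_one_smul k R, ev_smul, neg_one_smul]
  rw [fw, fw, h3, toMQ_neg, ev_sub, ev_smul, toMQ_sub, toMQ_ksmul, ← toMQ_ev_mul hB,
    ← toMQ_ev_mul hB, neg_mul, ← sub_eq_add_neg, add_mul, mul_sub, mul_sub]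
  have h4 : toMQ (ev B P) * (toMQ (ev B R) * sc L w) =
      toMQ (ev B R) * sc L w * (toMQ (ev B P) : MQ L a b) := by
    rw [mul_assoc, h2, ← mul_assoc, ← mul_assoc, toMQ_ev_mul hB, toMQ_ev_mul hB, mulC_comm]
  have h5 : toMQ (ev B R) * sc L w * (toMQ (ev B R) * sc L w) =
      C • (toMQ (ev B R) * toMQ (ev B R) : MQ L a b) := by
    rw [mul_assoc, ← mul_assoc (sc L w), h2, mul_assoc, h1, mul_smul_comm, mul_smul_comm, mul_one]
  rw [h4, h5]
  abel

theorem inD0_ev (hB : InD0 ρ lam B) (x : Fin 3 → k) : InD0 ρ lam (ev B x) := by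
  rw [← inD_toMQ (a := lam) (b := lam)]
  have h1 : (toMQ B : MQ L lam lam) ∈ dq ρ lam lam lam := inD_toMQ.2 hB
  have h2 : (toMQ (ev B x) : MQ L lam lam) = ev (toMQ B) x := by
    rw [ev, ev, toMQ_add, toMQ_add, toMQ_ksmul, toMQ_ksmul, toMQ_ksmul, toMQ_mul, toMQ_one]
  rw [h2]
  exact (dq ρ lam lam lam).add_mem ((dq ρ lam lam lam).add_mem
    ((dq ρ lam lam lam).smul_mem (dq ρ lam lam lam).one_mem _)
    ((dq ρ lam lam lam).smul_mem h1 _)) ((dq ρ lam lam lam).smul_mem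
    ((dq ρ lam lam lam).mul_mem h1 h1) _)

theorem fw_mem (hB : InD0 ρ lam B) (P R : Fin 3 → k) (w : Qt a b) :
    fw B P R w ∈ ew ρ lam w :=
  (ew ρ lam w).add_mem (d0_le_ew w (toMQ_mem (inD0_ev hB P)))
    ((ew ρ lam w).mul_mem (d0_le_ew w (toMQ_mem (inD0_ev hB R))) (sc_self_mem w))

theorem fw_comm (P R : Fin 3 → k) (w : Qt a b) {z : Matrix (Fin 3) (Fin 3) L}
    (hz : z * B = B * z) : fw B P R w * toMQ z = toMQ z * fw B P R w := by
  rw [fw, add_mul, mul_add, mul_assoc, sc_comm, ← mul_assoc, ← toMQ_mul, ← toMQ_mul, ← mul_assoc,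
    ← toMQ_mul, ← toMQ_mul, ev_comm hz, ev_comm hz]

theorem ev_transpose {S : Matrix (Fin 3) (Fin 3) L} (h : B * S = S * Bᵀ) (x : Fin 3 → k) :
    S * (ev B x)ᵀ = ev B x * S := by
  have h2 : B * B * S = S * (B * B)ᵀ := by
    rw [Matrix.transpose_mul, mul_assoc, h, ← mul_assoc, h, mul_assoc]
  rw [ev]
  simp only [Matrix.transpose_add, Matrix.transpose_smul, Matrix.transpose_one, mul_add, add_mul,
    mul_smul_comm, smul_mul_assoc, mul_one, one_mul, ← h, ← h2]

/-- The action on the symmetric matrices commuting with `B`. -/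
theorem fw_act (hB : B * B * B = p • B + q • 1) {w : Qt a b} {C : k}
    (hw : w.re = 0) (hw2 : -nrd w = C) (P R : Fin 3 → k) {S : Matrix (Fin 3) (Fin 3) L}
    (hS : B * S = S * Bᵀ) : fw B P R w * toMQ S * (fw B P R w)ᴴ =
      toMQ (ev B (mulC p q P P - C • mulC p q R R) * S) := by
  have h1 : (fw B P R w)ᴴ = toMQ (ev B P)ᵀ - toMQ (ev B R)ᵀ * sc L w := by
    rw [fw, Matrix.conjTranspose_add, Matrix.conjTranspose_mul, toMQ_conjT, toMQ_conjT,
      sc_conjT hw, neg_mul, sc_comm, sub_eq_add_neg]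
  have h2 : ∀ x : Fin 3 → k, sc L w * toMQ (ev B x) = toMQ (ev B x) * sc L w :=
    fun x => sc_comm _ _
  have h3 : ev B (-R) = -ev B R := by
    rw [← neg_one_smul k R, ev_smul, neg_one_smul]
  have h4 : toMQ S * (fw B P R w)ᴴ = fw B P (-R) w * toMQ S := by
    rw [h1, mul_sub, ← mul_assoc, ← toMQ_mul, ← toMQ_mul, ev_transpose hS, ev_transpose hS, fw, h3,
      toMQ_neg, neg_mul, ← sub_eq_add_neg, sub_mul, mul_assoc, sc_comm, ← mul_assoc, toMQ_mul,
      toMQ_mul]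
  rw [mul_assoc, h4, ← mul_assoc, fw_mul_bar hB hw hw2, toMQ_mul]

end gen

end Vale.Agent.P011.E6I
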