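import Vale.Agent.P011.E6I.H64.Rec
import Vale.Agent.P011.E6I.H637.Recip

/-!
The reduction of an element of `D` to a reciprocal element of `D ⊗ k(w)` and to an element of the
quadratic extension of a cubic subfield.
-/

open Matrix

namespace Vale.Agent.P011.E6I

open Vale.Agent.P011.MPQ Vale.Agent.P011.D4 Vale.Agent.P011.D4.Oct Vale.Agent.P011.E6

section main

variable {k L : Type} [Field k] [NumberField k] [Field L] [NumberField L] [Algebra k L]
  {ρ : L ≃ₐ[k] L} {lam : kˣ} {a b c : kˣ}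

omit [NumberField k] in
theorem nrd_pure {w : Qt a b} {C : k} (hw2 : w * w = C • (1 : Qt a b)) (hw : w.re = 0) :
    -nrd w = C := by
  have h := congrArg QuaternionAlgebra.re hw2
  simp [hw] at h
  rw [nrd, hw, ← h]
  ring

omit [NumberField k] in
/-- The units of `F(w)`. -/
theorem exists_fwU {B : Matrix (Fin 3) (Fin 3) L} {p q : k} (hB : Gn B p q) {w : Qt a b} {C : k}
    (hw : w.re = 0) (hw2 : -nrd w = C) {P R r : Fin 3 → k}
    (h : mulC p q P P - C • mulC p q R R = r) (hr : nmC p q r = 1) :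
    ∃ m : (MQ L a b)ˣ, (m : MQ L a b) = fw B P R w ∧
      ((m⁻¹ : (MQ L a b)ˣ) : MQ L a b) = fw B P (-R) w * toMQ (ev B (adC p q r)) := by
  have h1 := fw_mul_bar hB.cube hw hw2 P R
  have h1' := fw_mul_bar hB.cube hw hw2 P (-R)
  have h2 : -(-R) = R := neg_neg R
  have h3 : mulC p q (-R) (-R) = mulC p q R R := by
    rw [← neg_one_smul k R, mulC_smul, smul_mulC, smul_smul]
    norm_num
  rw [h2, h3] at h1'
  rw [h] at h1 h1'
  have h4 : (toMQ (ev B r) : MQ L a b) * toMQ (ev B (adC p q r)) = 1 := by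
    rw [toMQ_ev_mul hB.cube, mulC_adC, hr, one_smul, ev_one, toMQ_one]
  have h4' : (toMQ (ev B (adC p q r)) : MQ L a b) * toMQ (ev B r) = 1 := by
    rw [toMQ_ev_mul hB.cube, mulC_comm, mulC_adC, hr, one_smul, ev_one, toMQ_one]
  have h5 : fw B P (-R) w * toMQ (ev B (adC p q r)) =
      toMQ (ev B (adC p q r)) * fw B P (-R) w := by
    apply fw_comm
    exact (ev_comm rfl (adC p q r)).symm
  exact ⟨⟨fw B P R w, fw B P (-R) w * toMQ (ev B (adC p q r)), by rw [← mul_assoc, h1, h4], by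
    rw [h5, mul_assoc, h1', h4']⟩, rfl, rfl⟩

omit [NumberField k] [NumberField L] in
theorem nu_toMQ (x : Matrix (Fin 3) (Fin 3) L) : nu (toMQ x : MQ L a b) = x.det ^ 2 :=
  E6.nu_map x

theorem nu_fw (H : Hyp ρ lam a b c) {B : Matrix (Fin 3) (Fin 3) L} {p q : k} (hB : Gn B p q)
    (hBD : InD0 ρ lam B) {w : Qt a b} {C : k}
    (hw : w.re = 0) (hw2 : -nrd w = C) {P R r : Fin 3 → k}
    (h : mulC p q P P - C • mulC p q R R = r) (hr : nmC p q r = 1) : nu (fw B P R w) = 1 := by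
  have hab : Aniso a b := H64.aniso_of_division H.hdiv
  have habL : Aniso (up L a) (up L b) := H.aniso
  obtain ⟨v, hv, hnv, hwv⟩ := exists_anti hab hw
  have h1 := fw_mul_bar hB.cube hw hw2 P R
  rw [h] at h1
  have h2 := congrArg nu h1
  rw [nu_mul habL, nu_toMQ, hB.det_ev, hr, map_one, one_pow] at h2
  have h3 : sc L v * fw B P R w = fw B P (-R) w * sc L v := by
    have h3 : ev B (-R) = -ev B R := by
      rw [← neg_one_smul k R, ev_smul, neg_one_smul]
    have h4 : sc L w * sc L v = -(sc L v * sc L w) := by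
      rw [← sc_mul, ← sc_mul, ← sc_neg, hwv]
    rw [fw, fw, h3, toMQ_neg, mul_add, add_mul, sc_comm, ← mul_assoc, sc_comm, mul_assoc,
      neg_mul, neg_mul, mul_assoc _ (sc L w), h4, mul_neg, neg_neg]
  have h4 := congrArg nu h3
  rw [nu_mul habL, nu_mul habL] at h4
  have h5 : nu (sc L v : MQ L a b) ≠ 0 := by
    rw [sc, nu_diag, nrd_qup]
    have : algebraMap k L (nrd v) ≠ 0 := (map_ne_zero _).2 hnv
    exact mul_ne_zero (mul_ne_zero this this) this
  have h6 : nu (fw B P (-R) w) = nu (fw B P R w) := by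
    rw [mul_comm] at h4
    exact (mul_right_cancel₀ h5 h4).symm
  rw [h6] at h2
  obtain ⟨m, hm, -⟩ := exists_fwU hB hw hw2 h hr
  have hmD : InD ρ lam (m : MQ L a b) := by
    rw [hm]
    exact (fw_mem hBD P R w).1
  obtain ⟨κ, hκ⟩ := exists_kapI H hmD
  rw [hm, nrd_qup] at hκ
  rw [← hκ, ← map_mul] at h2
  have h7 : nrd κ * nrd κ = 1 := (algebraMap k L).injective (by rw [h2, map_one])
  obtain ⟨φ, hφa, hφb, -⟩ := exists_dfn H.hdiv
  have h8 : 0 ≤ φ (nrd κ) := by
    have e : φ (nrd κ) = φ κ.re ^ 2 + (-φ a) * φ κ.imI ^ 2 + (-φ b) * φ κ.imJ ^ 2 +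
        ((-φ a) * (-φ b)) * φ κ.imK ^ 2 := by
      simp only [nrd, map_sub, map_add, map_mul, map_pow]
      ring
    rw [e]
    have h1 : 0 < -φ a := neg_pos.2 hφa
    have h2 : 0 < -φ b := neg_pos.2 hφb
    positivity
  have h9 : nrd κ = 1 := by
    rcases mul_self_eq_one_iff.1 h7 with h | h
    · exact h
    · rw [h, map_neg, map_one] at h8
      linarith
  rw [← hκ, h9, map_one]

/-- **The reduction to a reciprocal element.** -/
theorem exists_q1 (H : Hyp ρ lam a b c) {B g : Matrix (Fin 3) (Fin 3) L} {p q : k}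
    (hB : Gn B p q) (hBD : InD0 ρ lam B) (hg : InD0 ρ lam g) (hdg : g.det = 1)
    {r X : Fin 3 → k} (hr : nmC p q r = 1) (hX : nmC p q X ≠ 0) {d : k} (hd : d ≠ 0)
    (ht : ∀ y : Fin 3 → k, trace (ev B X * ev B y) =
      algebraMap k L d * trace ((g.adjugate - (ev B r).adjugate * g) * ev B y))
    (hD : dsC p q ≠ 0) {w : Qt a b} (hw : w.re = 0) (hw0 : w ≠ 0)
    (hw2 : w * w = Cc p q (mulC p q (mulC p q X X) r) • (1 : Qt a b)) :
    ∃ (P R : Fin 3 → k) (q1 gU : (MQ L a b)ˣ), (q1 : MQ L a b) = fw B P R w ∧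
      (gU : MQ L a b) = toMQ g ∧
      mulC p q P P - Cc p q (mulC p q (mulC p q X X) r) • mulC p q R R = r ∧
      nu (q1 : MQ L a b) = 1 ∧ InD ρ lam ((gU * q1⁻¹ : (MQ L a b)ˣ) : MQ L a b) ∧
      nu ((gU * q1⁻¹ : (MQ L a b)ˣ) : MQ L a b) = 1 ∧ InRes ρ lam c (gU * q1⁻¹) := by
  have hab : Aniso a b := H64.aniso_of_division H.hdiv
  have habL : Aniso (up L a) (up L b) := H.aniso
  have hwn : -nrd w = Cc p q (mulC p q (mulC p q X X) r) := nrd_pure hw2 hw
  set f : Fin 3 → k := mulC p q (mulC p q X X) r with hf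
  have hN : nmC p q f = nmC p q X ^ 2 := by rw [hf, nmC_mul, nmC_mul, hr]; ring
  have hC : ∀ y, y ^ 2 ≠ Cc p q f := by
    intro y hy
    have h1 : nrd (algebraMap k (Qt a b) y + w) = 0 := by
      have e : nrd (algebraMap k (Qt a b) y + w) = y ^ 2 + nrd w := by
        simp only [nrd, QuaternionAlgebra.re_add, QuaternionAlgebra.imI_add,
          QuaternionAlgebra.imJ_add, QuaternionAlgebra.imK_add, hw,
          QuaternionAlgebra.algebraMap_eq]
        ring
      rw [e, hy, ← hwn]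
      ring
    have h2 := hab _ h1
    have h3 : w = algebraMap k (Qt a b) (-y) := by
      rw [map_neg]
      exact eq_neg_of_add_eq_zero_right h2
    apply hw0
    have h4 : -y = 0 := by
      rw [h3, QuaternionAlgebra.algebraMap_eq] at hw
      exact hw
    rw [h3, h4, map_zero]
  obtain ⟨x, y, hx, hy, hxy⟩ := heron hD f hX hN hC
  have hmul : ∀ z : Fin 3 → k, mulC p q ((nmC p q X)⁻¹ • mulC p q z (adC p q X)) X = z := by
    intro z
    rw [smul_mulC, mulC_assoc, mulC_comm p q (adC p q X), mulC_adC, mulC_smul, mulC_one, smul_smul,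
      inv_mul_cancel₀ hX, one_smul]
  obtain ⟨P, hP⟩ : ∃ P : Fin 3 → k, P = (nmC p q X)⁻¹ • mulC p q x (adC p q X) := ⟨_, rfl⟩
  obtain ⟨R, hR⟩ : ∃ R : Fin 3 → k, R = (nmC p q X)⁻¹ • mulC p q y (adC p q X) := ⟨_, rfl⟩
  have hPR : mulC p q P P - Cc p q f • mulC p q R R = r := by
    have e1 : mulC p q (mulC p q P P - Cc p q f • mulC p q R R) (mulC p q X X) =
        mulC p q r (mulC p q X X) := by
      have e2 : ∀ z, mulC p q (mulC p q z z) (mulC p q X X) =
          mulC p q (mulC p q z X) (mulC p q z X) := by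
        intro z
        rw [mulC_assoc, mulC_assoc, ← mulC_assoc p q z X X, ← mulC_assoc p q X z X,
          mulC_comm p q X z]
      have e3 : ∀ u v z : Fin 3 → k, mulC p q (u - v) z = mulC p q u z - mulC p q v z := by
        intro u v z
        rw [sub_eq_add_neg, ← neg_one_smul k v, mulC_comm, mulC_add, mulC_smul, neg_one_smul,
          ← sub_eq_add_neg, mulC_comm, mulC_comm p q z]
      rw [e3, smul_mulC, e2, e2, hP, hR, hmul, hmul, hxy, hf, mulC_comm]
    have e4 : ∀ z : Fin 3 → k, (nmC p q X ^ 2)⁻¹ • mulC p q (mulC p q z (mulC p q X X))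
        (mulC p q (adC p q X) (adC p q X)) = z := by
      intro z
      have e5 : mulC p q (mulC p q X X) (mulC p q (adC p q X) (adC p q X)) =
          (nmC p q X ^ 2) • ![1, 0, 0] := by
        rw [mulC_assoc, ← mulC_assoc p q X (adC p q X), mulC_adC, smul_mulC, mulC_smul,
          mulC_comm p q ![1, 0, 0], mulC_one, mulC_adC, smul_smul, sq]
      rw [mulC_assoc, e5, mulC_smul, mulC_one, smul_smul, inv_mul_cancel₀ (pow_ne_zero 2 hX),
        one_smul]
    rw [← e4 (mulC p q P P - Cc p q f • mulC p q R R), e1, e4]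
  obtain ⟨q1, hq1, hq1'⟩ := exists_fwU (a := a) (b := b) hB hw hwn hPR hr
  have hnu := nu_fw H hB hBD hw hwn hPR hr
  have hgg : g * g.adjugate = 1 := by rw [Matrix.mul_adjugate, hdg, one_smul]
  have hgg' : g.adjugate * g = 1 := by rw [Matrix.adjugate_mul, hdg, one_smul]
  let gU : (MQ L a b)ˣ := ⟨toMQ g, toMQ g.adjugate, by rw [← toMQ_mul, hgg, toMQ_one],
    by rw [← toMQ_mul, hgg', toMQ_one]⟩
  have hrr : (ev B r).adjugate = ev B (adC p q r) := by
    have e1 : ev B r * ev B (adC p q r) = 1 := by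
      rw [ev_mul hB.cube, mulC_adC, hr, one_smul, ev_one]
    have e2 : (ev B r).adjugate * ev B r = 1 := by
      rw [Matrix.adjugate_mul, hB.det_ev, hr, map_one, one_smul]
    calc (ev B r).adjugate = (ev B r).adjugate * (ev B r * ev B (adC p q r)) := by
          rw [e1, mul_one]
      _ = ev B (adC p q r) := by rw [← mul_assoc, e2, one_mul]
  have hy1 : ((gU * q1⁻¹ : (MQ L a b)ˣ) : MQ L a b) =
      toMQ (g * ev B (mulC p q P (adC p q r))) -
        toMQ (g * ev B (mulC p q R (adC p q r))) * sc L w := by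
    rw [Units.val_mul, hq1']
    change toMQ g * (fw B P (-R) w * toMQ (ev B (adC p q r))) = _
    have h3 : ev B (-R) = -ev B R := by
      rw [← neg_one_smul k R, ev_smul, neg_one_smul]
    rw [fw, h3, toMQ_neg, add_mul, mul_assoc _ (sc L w), sc_comm, ← mul_assoc _ _ (sc L w),
      neg_mul, toMQ_ev_mul hB.cube, toMQ_ev_mul hB.cube, mul_add, neg_mul, mul_neg,
      ← sub_eq_add_neg, ← mul_assoc, ← toMQ_mul, ← toMQ_mul]
  have hy2 : (((gU * q1⁻¹)⁻¹ : (MQ L a b)ˣ) : MQ L a b) =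
      toMQ (ev B P * g.adjugate) + toMQ (ev B R * g.adjugate) * sc L w := by
    rw [_root_.mul_inv_rev, inv_inv, Units.val_mul, hq1]
    change fw B P R w * toMQ g.adjugate = _
    rw [fw, add_mul, mul_assoc _ (sc L w), sc_comm, ← mul_assoc _ _ (sc L w), ← toMQ_mul,
      ← toMQ_mul]
  have htr : ∀ z : Fin 3 → k, trC p (mulC p q z X) = 0 → trace (ev B z * g.adjugate) =
      trace (g * ev B (mulC p q z (adC p q r))) := by
    intro z hz
    have e1 := ht z
    rw [ev_mul hB.cube, mulC_comm, hB.trace_ev, hz, map_zero] at e1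
    have e2 := (mul_eq_zero.1 e1.symm).resolve_left ((map_ne_zero _).2 hd)
    rw [sub_mul, Matrix.trace_sub, hrr, sub_eq_zero] at e2
    rw [Matrix.trace_mul_comm, e2, mul_assoc, Matrix.trace_mul_comm, mul_assoc, ev_mul hB.cube]
  have hD1 : InD ρ lam ((gU * q1⁻¹ : (MQ L a b)ˣ) : MQ L a b) := by
    rw [Units.val_mul, hq1']
    exact (dq ρ lam a b).mul_mem (inD_toMQ.2 hg) ((dq ρ lam a b).mul_mem (fw_mem hBD P (-R) w).1
      (inD_toMQ.2 (inD0_ev hBD _)))
  have hnu1 : nu ((gU * q1⁻¹ : (MQ L a b)ˣ) : MQ L a b) = 1 := by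
    have e1 : ((gU * q1⁻¹ : (MQ L a b)ˣ) : MQ L a b) * (q1 : MQ L a b) = toMQ g := by
      rw [← Units.val_mul, inv_mul_cancel_right]
    have e2 := congrArg nu e1
    rw [nu_mul habL, hq1, hnu, mul_one, nu_toMQ, hdg, one_pow] at e2
    exact e2
  refine ⟨P, R, q1, gU, hq1, rfl, hPR, by rw [hq1, hnu], hD1, hnu1, ?_⟩
  refine recip H w hw hw0 hD1 ?_ hnu1 ?_
  · rw [hy1, sub_mul, mul_sub, mul_assoc, ← mul_assoc (sc L w), sc_comm, sc_comm, mul_assoc]
  · rw [hy1, hy2, Matrix.trace_add, Matrix.trace_sub, trace_toMQ, trace_toMQ_sc, trace_toMQ,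
      trace_toMQ_sc, star_sub, star_alg, star_mul, star_alg, ← qup_star]
    have hsw : star w = -w := by ext <;> simp [hw]
    have hqn : qup L (-w) = -qup L w := map_neg (qupR L a b) w
    rw [hsw, hqn, neg_mul, sub_neg_eq_add, ← Algebra.commutes, htr P (by rw [hP, hmul]; exact hx),
      htr R (by rw [hR, hmul]; exact hy)]

end main

end Vale.Agent.P011.E6I
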